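import Vale.Agent.P355.H998U.R0
import Vale.Agent.P355.H998U.R1
import Vale.Agent.P355.H998U.R2
import Vale.Agent.P355.H998U.R3
import Vale.Agent.P355.H998U.R4
import Vale.Agent.P355.H998U.R5
import Vale.Agent.P355.H998U.R6
import Vale.Agent.P355.H998U.R7
import Vale.Agent.P355.H998U.R8
import Vale.Agent.P355.H998U.R9
import Vale.Agent.P355.H998U.R10
import Vale.Agent.P355.H998U.R11
import Vale.Agent.P355.H998U.R12
import Vale.Agent.P355.H998U.R13
import Vale.Agent.P355.H998U.R14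
import Vale.Agent.P355.H998U.R15
import Vale.Agent.P355.H998U.R16
import Vale.Agent.P355.H998U.R17
import Vale.Agent.P355.H998U.R18
import Vale.Agent.P355.H998U.R19
import Vale.Agent.P355.H998U.R20
import Vale.Agent.P355.H998U.R21
import Vale.Agent.P355.H998U.R22
import Vale.Agent.P355.H998U.R23
import Vale.Agent.P355.H998U.R24
import Vale.Agent.P355.H998U.R25
import Vale.Agent.P355.H998U.R26
import Vale.Agent.P355.H998U.R27
import Vale.Agent.P355.H998U.R28
import Vale.Agent.P355.H998U.R29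
import Vale.Agent.P355.H998U.R30
import Vale.Agent.P355.H998U.R31
import Vale.Agent.P355.H998U.R32
import Vale.Agent.P355.H998U.R33
import Vale.Agent.P355.H998U.R34
import Vale.Agent.P355.H998U.R35
import Vale.Agent.P355.H998U.R36
import Vale.Agent.P355.H998U.R37
import Vale.Agent.P355.H998U.R38
import Vale.Agent.P355.H998U.R39
import Vale.Agent.P355.H998U.R40
import Vale.Agent.P355.H998U.R41
import Vale.Agent.P355.H998U.R42
import Vale.Agent.P355.H998U.R43
import Vale.Agent.P355.H998U.R44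
import Vale.Agent.P355.H998U.R45
import Vale.Agent.P355.H998U.R46
import Vale.Agent.P355.H998U.R47
import Vale.Agent.P355.H998U.R48
import Vale.Agent.P355.H998U.R49
import Vale.Agent.P355.H998U.R50
import Vale.Agent.P355.H998U.R51
import Vale.Agent.P355.H998U.R52
import Vale.Agent.P355.H998U.R53
import Vale.Agent.P355.H998U.R54
import Vale.Agent.P355.H998U.R55
import Vale.Agent.P355.H998U.R56
import Vale.Agent.P355.H998U.R57
import Vale.Agent.P355.H998U.R58
import Vale.Agent.P355.H998U.R59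
import Vale.Agent.P355.H998U.R60
import Vale.Agent.P355.H998U.R61
import Vale.Agent.P355.H998U.R62
import Vale.Agent.P355.H998U.R63
import Vale.Agent.P355.H998U.R64
import Vale.Agent.P355.H998U.R65
import Vale.Agent.P355.H998U.R66
import Vale.Agent.P355.H998U.R67
import Vale.Agent.P355.H998U.R68
import Vale.Agent.P355.H998U.R69
import Vale.Agent.P355.H998U.R70
import Vale.Agent.P355.H998U.R71
import Vale.Agent.P355.H998U.R72
import Vale.Agent.P355.H998U.R73
import Vale.Agent.P355.H998U.R74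
import Vale.Agent.P355.H998U.R75
import Vale.Agent.P355.H998U.R76
import Vale.Agent.P355.H998U.R77
import Vale.Agent.P355.H998U.R78
import Vale.Agent.P355.H998U.R79
import Vale.Agent.P355.H998U.R80
import Vale.Agent.P355.H998U.R81
import Vale.Agent.P355.H998U.R82
import Vale.Agent.P355.H998U.R83
import Vale.Agent.P355.H998U.R84
import Vale.Agent.P355.H998U.R85
import Vale.Agent.P355.H998U.R86
import Vale.Agent.P355.H998U.R87
import Vale.Agent.P355.H998U.R88
import Vale.Agent.P355.H998U.R89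
import Vale.Agent.P355.H998U.R90
import Vale.Agent.P355.H998U.R91
import Vale.Agent.P355.H998U.R92
import Vale.Agent.P355.H998U.R93
import Vale.Agent.P355.H998U.R94
import Vale.Agent.P355.H998U.R95
import Vale.Agent.P355.H998U.R96
import Vale.Agent.P355.H998U.R97
import Vale.Agent.P355.H998U.R98
import Vale.Agent.P355.H998U.R99
import Vale.Agent.P355.H998U.R100
import Vale.Agent.P355.H998U.R101
import Vale.Agent.P355.H998U.R102
import Vale.Agent.P355.H998U.R103
import Vale.Agent.P355.H998U.R104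
import Vale.Agent.P355.H998U.R105
import Vale.Agent.P355.H998U.R106
import Vale.Agent.P355.H998U.R107
import Vale.Agent.P355.H998U.R108
import Vale.Agent.P355.H998U.R109
import Vale.Agent.P355.H998U.R110
import Vale.Agent.P355.H998U.R111
import Vale.Agent.P355.H998U.R112
import Vale.Agent.P355.H998U.R113
import Vale.Agent.P355.H998U.R114
import Vale.Agent.P355.H998U.R115
import Vale.Agent.P355.H998U.R116
import Vale.Agent.P355.H998U.R117
import Vale.Agent.P355.H998U.R118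
import Vale.Agent.P355.H998U.R119
import Vale.Agent.P355.H998U.R120
import Vale.Agent.P355.H998U.R121
import Vale.Agent.P355.H998U.R122
import Vale.Agent.P355.H998U.R123
import Vale.Agent.P355.H998U.R124
import Vale.Agent.P355.H998U.R125
import Vale.Agent.P355.H998U.R126
import Vale.Agent.P355.H998U.R127
import Vale.Agent.P355.H998U.R128
import Vale.Agent.P355.H998U.R129
import Vale.Agent.P355.H998U.R130
import Vale.Agent.P355.H998U.R131
import Vale.Agent.P355.H998U.R132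
import Vale.Agent.P355.H998U.R133
import Vale.Agent.P355.H998U.R134
import Vale.Agent.P355.H998U.R135
import Vale.Agent.P355.H998U.R136
import Vale.Agent.P355.H998U.R137
import Vale.Agent.P355.H998U.R138
import Vale.Agent.P355.H998U.R139
import Vale.Agent.P355.H998U.R140
import Vale.Agent.P355.H998U.R141
import Vale.Agent.P355.H998U.R142
import Vale.Agent.P355.H998U.R143
import Vale.Agent.P355.H998U.R144
import Vale.Agent.P355.H998U.R145
import Vale.Agent.P355.H998U.R146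
import Vale.Agent.P355.H998U.R147
import Vale.Agent.P355.H998U.R148
import Vale.Agent.P355.H998U.R149
import Vale.Agent.P355.H998U.R150
import Vale.Agent.P355.H998U.R151
import Vale.Agent.P355.H998U.R152
import Vale.Agent.P355.H998U.R153
import Vale.Agent.P355.H998U.R154
import Vale.Agent.P355.H998U.R155
import Vale.Agent.P355.H998U.R156
import Vale.Agent.P355.H998U.R157
import Vale.Agent.P355.H998U.R158
import Vale.Agent.P355.H998U.R159
import Vale.Agent.P355.H998U.R160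
import Vale.Agent.P355.H998U.R161
import Vale.Agent.P355.H998U.R162
import Vale.Agent.P355.H998U.R163
import Vale.Agent.P355.H998U.R164
import Vale.Agent.P355.H998U.R165
import Vale.Agent.P355.H998U.R166
import Vale.Agent.P355.H998U.R167
import Vale.Agent.P355.H998U.R168
import Vale.Agent.P355.H998U.R169
import Vale.Agent.P355.H998U.R170
import Vale.Agent.P355.H998U.R171
import Vale.Agent.P355.H998U.R172
import Vale.Agent.P355.H998U.R173
import Vale.Agent.P355.H998U.R174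
import Vale.Agent.P355.H998U.R175
import Vale.Agent.P355.H998U.R176
import Vale.Agent.P355.H998U.R177
import Vale.Agent.P355.H998U.R178
import Vale.Agent.P355.H998U.R179
import Vale.Agent.P355.H998U.R180
import Vale.Agent.P355.H998U.R181
import Vale.Agent.P355.H998U.R182
import Vale.Agent.P355.H998U.R183
import Vale.Agent.P355.H998U.R184
import Vale.Agent.P355.H998U.R185
import Vale.Agent.P355.H998U.R186
import Vale.Agent.P355.H998U.R187
import Vale.Agent.P355.H998U.R188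
import Vale.Agent.P355.H998U.R189
import Vale.Agent.P355.H998U.R190
import Vale.Agent.P355.H998U.R191
import Vale.Agent.P355.H998U.R192
import Vale.Agent.P355.H998U.R193
import Vale.Agent.P355.H998U.R194
import Vale.Agent.P355.H998U.R195
import Vale.Agent.P355.H998U.R196
import Vale.Agent.P355.H998U.R197
import Vale.Agent.P355.H998U.R198
import Vale.Agent.P355.H998U.R199
import Vale.Agent.P355.H998U.R200
import Vale.Agent.P355.H998U.R201
import Vale.Agent.P355.H998U.R202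
import Vale.Agent.P355.H998U.R203
import Vale.Agent.P355.H998U.R204
import Vale.Agent.P355.H998U.R205
import Vale.Agent.P355.H998U.R206
import Vale.Agent.P355.H998U.R207
import Vale.Agent.P355.H998U.R208
import Vale.Agent.P355.H998U.R209
import Vale.Agent.P355.H998U.R210
import Vale.Agent.P355.H998U.R211
import Vale.Agent.P355.H998U.R212
import Vale.Agent.P355.H998U.R213
import Vale.Agent.P355.H998U.R214
import Vale.Agent.P355.H998U.R215
import Vale.Agent.P355.H998U.R216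
import Vale.Agent.P355.H998U.R217
import Vale.Agent.P355.H998U.R218
import Vale.Agent.P355.H998U.R219
import Vale.Agent.P355.H998U.R220
import Vale.Agent.P355.H998U.R221
import Vale.Agent.P355.H998U.R222
import Vale.Agent.P355.H998U.R223
import Vale.Agent.P355.H998U.R224
import Vale.Agent.P355.H998U.R225
import Vale.Agent.P355.H998U.R226
import Vale.Agent.P355.H998U.R227
import Vale.Agent.P355.H998U.R228
import Vale.Agent.P355.H998U.R229
import Vale.Agent.P355.H998U.R230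
import Vale.Agent.P355.H998U.R231
import Vale.Agent.P355.H998U.R232
import Vale.Agent.P355.H998U.R233
import Vale.Agent.P355.H998U.R234
import Vale.Agent.P355.H998U.R235
import Vale.Agent.P355.H998U.R236
import Vale.Agent.P355.H998U.R237
import Vale.Agent.P355.H998U.R238
import Vale.Agent.P355.H998U.R239
import Vale.Agent.P355.H998U.R240
import Vale.Agent.P355.H998U.R241
import Vale.Agent.P355.H998U.R242
import Vale.Agent.P355.H998U.R243
import Vale.Agent.P355.H998U.R244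
import Vale.Agent.P355.H998U.R245
import Vale.Agent.P355.H998U.R246
import Vale.Agent.P355.H998U.R247
import Vale.Agent.P355.H998U.R248
import Vale.Agent.P355.H998U.R249
import Vale.Agent.P355.H998U.R250
import Vale.Agent.P355.H998U.R251
import Vale.Agent.P355.H998U.R252
import Vale.Agent.P355.H998U.R253
import Vale.Agent.P355.H998U.R254
import Vale.Agent.P355.H998U.R255
import Vale.Agent.P355.H998U.R256
import Vale.Agent.P355.H998U.R257
import Vale.Agent.P355.H998U.R258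
import Vale.Agent.P355.H998U.R259
import Vale.Agent.P355.H998U.R260
import Vale.Agent.P355.H998U.R261
import Vale.Agent.P355.H998U.R262
import Vale.Agent.P355.H998U.R263
import Vale.Agent.P355.H998U.R264
import Vale.Agent.P355.H998U.R265
import Vale.Agent.P355.H998U.R266
import Vale.Agent.P355.H998U.R267
import Vale.Agent.P355.H998U.R268
import Vale.Agent.P355.H998U.R269
import Vale.Agent.P355.H998.R.Wk

namespace Vale.Agent.P355.H998U

open Vale.Agent.P355 Vale.Agent.P355.H138 Vale.Agent.P355.H129 Vale.Agent.P355.H998.R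
open Vale.Agent.P355.H387 (CT)
open Vale.Agent.P355.H950U (ct)

theorem RwC {x : Fin 7 → Fin 7 → ℂ} {ct : CT} {m : List (ℕ × ℕ)} {l : List (List (ℕ × ℕ))}
    (h : RwP x ct m) (h' : RwP x ct (cat l)) : RwP x ct (cat (m :: l)) := RwP.app h h'

def S8_ : List (List (ℕ × ℕ)) := m256 :: (m257 :: (m258 :: (m259 :: (m260 :: (m261 :: (m262 :: (m263 :: (m264 :: (m265 :: (m266 :: (m267 :: (m268 :: (m269 :: (List.nil))))))))))))))

theorem s8_ {x : Fin 7 → Fin 7 → ℂ} (hx : Base x) (hN : H182.N7x x) : RwP x ct (cat S8_) :=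
  RwC (mr256 hx hN) (RwC (mr257 hx hN) (RwC (mr258 hx hN) (RwC (mr259 hx hN) (RwC (mr260 hx hN) (RwC (mr261 hx hN) (RwC (mr262 hx hN) (RwC (mr263 hx hN) (RwC (mr264 hx hN) (RwC (mr265 hx hN) (RwC (mr266 hx hN) (RwC (mr267 hx hN) (RwC (mr268 hx hN) (RwC (mr269 hx hN) (RwP.nil))))))))))))))

def S7_ : List (List (ℕ × ℕ)) := m224 :: (m225 :: (m226 :: (m227 :: (m228 :: (m229 :: (m230 :: (m231 :: (m232 :: (m233 :: (m234 :: (m235 :: (m236 :: (m237 :: (m238 :: (m239 :: (m240 :: (m241 :: (m242 :: (m243 :: (m244 :: (m245 :: (m246 :: (m247 :: (m248 :: (m249 :: (m250 :: (m251 :: (m252 :: (m253 :: (m254 :: (m255 :: (S8_))))))))))))))))))))))))))))))))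

theorem s7_ {x : Fin 7 → Fin 7 → ℂ} (hx : Base x) (hN : H182.N7x x) : RwP x ct (cat S7_) :=
  RwC (mr224 hx hN) (RwC (mr225 hx hN) (RwC (mr226 hx hN) (RwC (mr227 hx hN) (RwC (mr228 hx hN) (RwC (mr229 hx hN) (RwC (mr230 hx hN) (RwC (mr231 hx hN) (RwC (mr232 hx hN) (RwC (mr233 hx hN) (RwC (mr234 hx hN) (RwC (mr235 hx hN) (RwC (mr236 hx hN) (RwC (mr237 hx hN) (RwC (mr238 hx hN) (RwC (mr239 hx hN) (RwC (mr240 hx hN) (RwC (mr241 hx hN) (RwC (mr242 hx hN) (RwC (mr243 hx hN) (RwC (mr244 hx hN) (RwC (mr245 hx hN) (RwC (mr246 hx hN) (RwC (mr247 hx hN) (RwC (mr248 hx hN) (RwC (mr249 hx hN) (RwC (mr250 hx hN) (RwC (mr251 hx hN) (RwC (mr252 hx hN) (RwC (mr253 hx hN) (RwC (mr254 hx hN) (RwC (mr255 hx hN) (s8_ hx hN))))))))))))))))))))))))))))))))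

def S6_ : List (List (ℕ × ℕ)) := m192 :: (m193 :: (m194 :: (m195 :: (m196 :: (m197 :: (m198 :: (m199 :: (m200 :: (m201 :: (m202 :: (m203 :: (m204 :: (m205 :: (m206 :: (m207 :: (m208 :: (m209 :: (m210 :: (m211 :: (m212 :: (m213 :: (m214 :: (m215 :: (m216 :: (m217 :: (m218 :: (m219 :: (m220 :: (m221 :: (m222 :: (m223 :: (S7_))))))))))))))))))))))))))))))))

theorem s6_ {x : Fin 7 → Fin 7 → ℂ} (hx : Base x) (hN : H182.N7x x) : RwP x ct (cat S6_) :=
  RwC (mr192 hx hN) (RwC (mr193 hx hN) (RwC (mr194 hx hN) (RwC (mr195 hx hN) (RwC (mr196 hx hN) (RwC (mr197 hx hN) (RwC (mr198 hx hN) (RwC (mr199 hx hN) (RwC (mr200 hx hN) (RwC (mr201 hx hN) (RwC (mr202 hx hN) (RwC (mr203 hx hN) (RwC (mr204 hx hN) (RwC (mr205 hx hN) (RwC (mr206 hx hN) (RwC (mr207 hx hN) (RwC (mr208 hx hN) (RwC (mr209 hx hN) (RwC (mr210 hx hN) (RwC (mr211 hx hN) (RwC (mr212 hx hN) (RwC (mr213 hx hN) (RwC (mr214 hx hN) (RwC (mr215 hx hN) (RwC (mr216 hx hN) (RwC (mr217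 hx hN) (RwC (mr218 hx hN) (RwC (mr219 hx hN) (RwC (mr220 hx hN) (RwC (mr221 hx hN) (RwC (mr222 hx hN) (RwC (mr223 hx hN) (s7_ hx hN))))))))))))))))))))))))))))))))

def S5_ : List (List (ℕ × ℕ)) := m160 :: (m161 :: (m162 :: (m163 :: (m164 :: (m165 :: (m166 :: (m167 :: (m168 :: (m169 :: (m170 :: (m171 :: (m172 :: (m173 :: (m174 :: (m175 :: (m176 :: (m177 :: (m178 :: (m179 :: (m180 :: (m181 :: (m182 :: (m183 :: (m184 :: (m185 :: (m186 :: (m187 :: (m188 :: (m189 :: (m190 :: (m191 :: (S6_))))))))))))))))))))))))))))))))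

theorem s5_ {x : Fin 7 → Fin 7 → ℂ} (hx : Base x) (hN : H182.N7x x) : RwP x ct (cat S5_) :=
  RwC (mr160 hx hN) (RwC (mr161 hx hN) (RwC (mr162 hx hN) (RwC (mr163 hx hN) (RwC (mr164 hx hN) (RwC (mr165 hx hN) (RwC (mr166 hx hN) (RwC (mr167 hx hN) (RwC (mr168 hx hN) (RwC (mr169 hx hN) (RwC (mr170 hx hN) (RwC (mr171 hx hN) (RwC (mr172 hx hN) (RwC (mr173 hx hN) (RwC (mr174 hx hN) (RwC (mr175 hx hN) (RwC (mr176 hx hN) (RwC (mr177 hx hN) (RwC (mr178 hx hN) (RwC (mr179 hx hN) (RwC (mr180 hx hN) (RwC (mr181 hx hN) (RwC (mr182 hx hN) (RwC (mr183 hx hN) (RwC (mr184 hx hN) (RwC (mr185 hx hN) (RwC (mr186 hx hN) (RwC (mr187 hx hN) (RwC (mr188 hx hN) (RwC (mr189 hx hN) (RwC (mr190 hx hN) (RwC (mr191 hx hN) (s6_ hx hN))))))))))))))))))))))))))))))))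

def S4_ : List (List (ℕ × ℕ)) := m128 :: (m129 :: (m130 :: (m131 :: (m132 :: (m133 :: (m134 :: (m135 :: (m136 :: (m137 :: (m138 :: (m139 :: (m140 :: (m141 :: (m142 :: (m143 :: (m144 :: (m145 :: (m146 :: (m147 :: (m148 :: (m149 :: (m150 :: (m151 :: (m152 :: (m153 :: (m154 :: (m155 :: (m156 :: (m157 :: (m158 :: (m159 :: (S5_))))))))))))))))))))))))))))))))

theorem s4_ {x : Fin 7 → Fin 7 → ℂ} (hx : Base x) (hN : H182.N7x x) : RwP x ct (cat S4_) :=
  RwC (mr128 hx hN) (RwC (mr129 hx hN) (RwC (mr130 hx hN) (RwC (mr131 hx hN) (RwC (mr132 hx hN) (RwC (mr133 hx hN) (RwC (mr134 hx hN) (RwC (mr135 hx hN) (RwC (mr136 hx hN) (RwC (mr137 hx hN) (RwC (mr138 hx hN) (RwC (mr139 hx hN) (RwC (mr140 hx hN) (RwC (mr141 hx hN) (RwC (mr142 hx hN) (RwC (mr143 hx hN) (RwC (mr144 hx hN) (RwC (mr145 hx hN) (RwC (mr146 hx hN) (RwC (mr147 hx hN) (RwC (mr148 hx hN) (RwC (mr149 hx hN) (RwC (mr150 hx hN) (RwC (mr151 hx hN) (RwC (mr152 hx hN) (RwC (mr153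 hx hN) (RwC (mr154 hx hN) (RwC (mr155 hx hN) (RwC (mr156 hx hN) (RwC (mr157 hx hN) (RwC (mr158 hx hN) (RwC (mr159 hx hN) (s5_ hx hN))))))))))))))))))))))))))))))))

def S3_ : List (List (ℕ × ℕ)) := m96 :: (m97 :: (m98 :: (m99 :: (m100 :: (m101 :: (m102 :: (m103 :: (m104 :: (m105 :: (m106 :: (m107 :: (m108 :: (m109 :: (m110 :: (m111 :: (m112 :: (m113 :: (m114 :: (m115 :: (m116 :: (m117 :: (m118 :: (m119 :: (m120 :: (m121 :: (m122 :: (m123 :: (m124 :: (m125 :: (m126 :: (m127 :: (S4_))))))))))))))))))))))))))))))))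

theorem s3_ {x : Fin 7 → Fin 7 → ℂ} (hx : Base x) (hN : H182.N7x x) : RwP x ct (cat S3_) :=
  RwC (mr96 hx hN) (RwC (mr97 hx hN) (RwC (mr98 hx hN) (RwC (mr99 hx hN) (RwC (mr100 hx hN) (RwC (mr101 hx hN) (RwC (mr102 hx hN) (RwC (mr103 hx hN) (RwC (mr104 hx hN) (RwC (mr105 hx hN) (RwC (mr106 hx hN) (RwC (mr107 hx hN) (RwC (mr108 hx hN) (RwC (mr109 hx hN) (RwC (mr110 hx hN) (RwC (mr111 hx hN) (RwC (mr112 hx hN) (RwC (mr113 hx hN) (RwC (mr114 hx hN) (RwC (mr115 hx hN) (RwC (mr116 hx hN) (RwC (mr117 hx hN) (RwC (mr118 hx hN) (RwC (mr119 hx hN) (RwC (mr120 hx hN) (RwC (mr121 hx hN) (RwC (mr122 hx hN) (RwC (mr123 hx hN) (RwC (mr124 hx hN) (RwC (mr125 hx hN) (RwC (mr126 hx hN) (RwC (mr127 hx hN) (s4_ hx hN))))))))))))))))))))))))))))))))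

def S2_ : List (List (ℕ × ℕ)) := m64 :: (m65 :: (m66 :: (m67 :: (m68 :: (m69 :: (m70 :: (m71 :: (m72 :: (m73 :: (m74 :: (m75 :: (m76 :: (m77 :: (m78 :: (m79 :: (m80 :: (m81 :: (m82 :: (m83 :: (m84 :: (m85 :: (m86 :: (m87 :: (m88 :: (m89 :: (m90 :: (m91 :: (m92 :: (m93 :: (m94 :: (m95 :: (S3_))))))))))))))))))))))))))))))))

theorem s2_ {x : Fin 7 → Fin 7 → ℂ} (hx : Base x) (hN : H182.N7x x) : RwP x ct (cat S2_) :=
  RwC (mr64 hx hN) (RwC (mr65 hx hN) (RwC (mr66 hx hN) (RwC (mr67 hx hN) (RwC (mr68 hx hN) (RwC (mr69 hx hN) (RwC (mr70 hx hN) (RwC (mr71 hx hN) (RwC (mr72 hx hN) (RwC (mr73 hx hN) (RwC (mr74 hx hN) (RwC (mr75 hx hN) (RwC (mr76 hx hN) (RwC (mr77 hx hN) (RwC (mr78 hx hN) (RwC (mr79 hx hN) (RwC (mr80 hx hN) (RwC (mr81 hx hN) (RwC (mr82 hx hN) (RwC (mr83 hx hN) (RwC (mr84 hx hN) (RwC (mr85 hx hN) (RwC (mr86 hx hN) (RwC (mr87 hx hN) (RwC (mr88 hx hN) (RwC (mr89 hx hN) (RwC (mr90 hx hN) (RwC (mr91 hx hN) (RwC (mr92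 hx hN) (RwC (mr93 hx hN) (RwC (mr94 hx hN) (RwC (mr95 hx hN) (s3_ hx hN))))))))))))))))))))))))))))))))

def S1_ : List (List (ℕ × ℕ)) := m32 :: (m33 :: (m34 :: (m35 :: (m36 :: (m37 :: (m38 :: (m39 :: (m40 :: (m41 :: (m42 :: (m43 :: (m44 :: (m45 :: (m46 :: (m47 :: (m48 :: (m49 :: (m50 :: (m51 :: (m52 :: (m53 :: (m54 :: (m55 :: (m56 :: (m57 :: (m58 :: (m59 :: (m60 :: (m61 :: (m62 :: (m63 :: (S2_))))))))))))))))))))))))))))))))

theorem s1_ {x : Fin 7 → Fin 7 → ℂ} (hx : Base x) (hN : H182.N7x x) : RwP x ct (cat S1_) :=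
  RwC (mr32 hx hN) (RwC (mr33 hx hN) (RwC (mr34 hx hN) (RwC (mr35 hx hN) (RwC (mr36 hx hN) (RwC (mr37 hx hN) (RwC (mr38 hx hN) (RwC (mr39 hx hN) (RwC (mr40 hx hN) (RwC (mr41 hx hN) (RwC (mr42 hx hN) (RwC (mr43 hx hN) (RwC (mr44 hx hN) (RwC (mr45 hx hN) (RwC (mr46 hx hN) (RwC (mr47 hx hN) (RwC (mr48 hx hN) (RwC (mr49 hx hN) (RwC (mr50 hx hN) (RwC (mr51 hx hN) (RwC (mr52 hx hN) (RwC (mr53 hx hN) (RwC (mr54 hx hN) (RwC (mr55 hx hN) (RwC (mr56 hx hN) (RwC (mr57 hx hN) (RwC (mr58 hx hN) (RwC (mr59 hx hN) (RwC (mr60 hx hN) (RwC (mr61 hx hN) (RwC (mr62 hx hN) (RwC (mr63 hx hN) (s2_ hx hN))))))))))))))))))))))))))))))))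

def S0_ : List (List (ℕ × ℕ)) := m0 :: (m1 :: (m2 :: (m3 :: (m4 :: (m5 :: (m6 :: (m7 :: (m8 :: (m9 :: (m10 :: (m11 :: (m12 :: (m13 :: (m14 :: (m15 :: (m16 :: (m17 :: (m18 :: (m19 :: (m20 :: (m21 :: (m22 :: (m23 :: (m24 :: (m25 :: (m26 :: (m27 :: (m28 :: (m29 :: (m30 :: (m31 :: (S1_))))))))))))))))))))))))))))))))

theorem s0_ {x : Fin 7 → Fin 7 → ℂ} (hx : Base x) (hN : H182.N7x x) : RwP x ct (cat S0_) :=
  RwC (mr0 hx hN) (RwC (mr1 hx hN) (RwC (mr2 hx hN) (RwC (mr3 hx hN) (RwC (mr4 hx hN) (RwC (mr5 hx hN) (RwC (mr6 hx hN) (RwC (mr7 hx hN) (RwC (mr8 hx hN) (RwC (mr9 hx hN) (RwC (mr10 hx hN) (RwC (mr11 hx hN) (RwC (mr12 hx hN) (RwC (mr13 hx hN) (RwC (mr14 hx hN) (RwC (mr15 hx hN) (RwC (mr16 hx hN) (RwC (mr17 hx hN) (RwC (mr18 hx hN) (RwC (mr19 hx hN) (RwC (mr20 hx hN) (RwC (mr21 hx hN) (RwC (mr22 hx hN) (RwC (mr23 hx hN) (RwC (mr24 hx hN) (RwC (mr25 hx hN) (RwC (mr26 hx hN) (RwC (mr27 hx hN) (RwC (mr28 hx hN) (RwC (mr29 hx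 hN) (RwC (mr30 hx hN) (RwC (mr31 hx hN) (s1_ hx hN))))))))))))))))))))))))))))))))

/-- the lists of the rows. -/
def LRw : List (List (ℕ × ℕ)) := S0_

theorem rw0 {x : Fin 7 → Fin 7 → ℂ} (hx : Base x) (hN : H182.N7x x) : RwP x ct (cat LRw) := s0_ hx hN

end Vale.Agent.P355.H998U
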