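import Vale.Agent.P355.H998U.Dat

namespace Vale.Agent.P355.H998U

open Vale.Agent.P355.H998.R

theorem r57 : rV BL AL 57 437 = true := by decide +kernel

end Vale.Agent.P355.H998U
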